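import Crest.Agent.X212.Hd82.Defs
import Crest.Agent.X212.G75.Dat

/-! Row 212, **HD-MXB** (helper34). -/

set_option autoImplicit false
set_option linter.unusedSectionVars false
noncomputable section
open Set Function Filter Topology
open scoped ContDiff Manifold
open Crest.Agent.R208.F (Ext)

namespace Crest.Agent.X212.Mxb34
open An M G75
open Dr59 (mf)
open Met55 (atx VF FAt pfd)
open Line51 (th)

local notation "st" => Real.smoothTransition

variable {X X' : Mf 4} {A A' A₀ κ lam : Type} [Fintype A] [Fintype A'] [Fintype A₀] [Fintype κ]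
  [Fintype lam] [DecidableEq lam] {M : Mark X A κ} {M' : Mark X' A' κ}

theorem s_ψ (I : MId M M' A₀) (b : A₀) {x : X.M} (hx : x ∈ I.ψ.source) :
    (M'.bn (I.f' b)).s (I.ψ x) = (M.bn (I.f b)).s x := by
  by_cases k : x ∈ range (M.bn (I.f b)).j
  · obtain ⟨q, rfl⟩ := k
    rw [I.jj, Band.s_j, Band.s_j]
  · rw [Band.s_off _ fun h => k (Band.slab_subset _ _ h), Band.s_off _ fun h =>
      k ((Met55.mem_band I b hx).1 (Band.slab_subset _ _ h))]
    exact if_congr (by simpa [Mark.sys, Band.wall, pm] using I.sd b true x hx) rfl rfl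

theorem mem_hf {a : A} {b : Bool} {x : X.M} (h : -3 < pm b * (M.bn a).s x) : x ∈ hf M a b := by
  by_cases k : 0 < pm b * (M.bn a).s x
  · exact .inl ((M.bn a).mem_sd.2 k)
  · exact .inr (((M.bn a).exists_of_abs_s_lt (x := x) (by
      cases b <;> simp only [pm, if_true, Bool.false_eq_true, if_false] at h k <;>
        exact abs_lt.2 ⟨by linarith, by linarith⟩)).elim fun y h => ⟨_, h⟩)

/-- cut-offs -/
def ct (M : Mark X A κ) (a : A) (b : Bool) (x : X.M) : ℝ := st (1 / 2 + pm b * (M.bn a).s x)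

theorem ct_sm (a : A) (b : Bool) (x : X.M) : Pj41.FSm X.I (ct M a b) x :=
  (Real.smoothTransition.contDiff.comp (contDiff_const.add (contDiff_const.mul contDiff_id))).contDiffAt.comp_contMDiffAt
    ((M.bn a).contMDiff_s x)

theorem ct_supp (a : A) (b : Bool) : tsupport (ct M a b) ⊆ hf M a b :=
  (closure_minimal (t := {x | -1 ≤ pm b * (M.bn a).s x}) (fun x (hx : _ ≠ _) => not_lt.1
    fun k : pm b * (M.bn a).s x < -1 => hx (Real.smoothTransition.zero_of_nonpos (by linarith)))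
    (isClosed_le continuous_const (continuous_const.mul (M.bn a).contMDiff_s.continuous))).trans
    fun x hx => mem_hf (lt_of_lt_of_le (by norm_num) (show -1 ≤ _ from hx))

variable (Lm : LM κ lam)

/-- **HD-MXB** -/
theorem mxb : Hd82.MxbStmt Lm := by
  intro y S t R c i B₁ b₁ B₀ b₀ u hy ht
  have := S.M.con
  have := S.M.cpt
  have := y.M.cpt
  have f0 : t.IH.f 0 = y.a := congrFun ht.hf0.1 0
  have f1 : t.IH.f 1 = y.h := congrFun ht.hf0.1 1
  have f2 : t.IH.f 2 = y.s := congrFun ht.hf0.1 2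
  have g0 : t.IH.f' 0 = t.a := congrFun ht.hf0.2 0
  have g1 : t.IH.f' 1 = t.h := congrFun ht.hf0.2 1
  have g2 : t.IH.f' 2 = t.s := congrFun ht.hf0.2 2
  have bd : ∀ n, ∀ x ∈ (S.M.sys.w (t.IH.f' n)).band, ∃ z ∈ (y.M.sys.w (t.IH.f n)).band,
      z ∈ t.IH.ψ.source ∧ t.IH.ψ z = x := by
    rintro n _ ⟨q, rfl⟩
    exact ⟨_, ⟨((t.IH.g n).symm q.1, q.2), rfl⟩, t.IH.sub n ⟨_, rfl⟩, by simp [t.IH.jj]⟩
  have ne : hf S.M t.a false ⊆ hf S.M t.h false := by
    rw [← g0, ← g1]
    refine (Wall.nest (b := true) (disjoint_left.2 fun x h k => ?_) (fun x h => ?_)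
      fun x h => ?_).trans subset_union_left <;> obtain ⟨z, a, b, rfl⟩ := bd _ x h
    · exact disjoint_left.1 hy.ah.1 (f0 ▸ a) (f1 ▸ (Met55.mem_band t.IH 1 b).1 k :)
    · exact (t.IH.sd 0 _ z b).2 (f0 ▸ hy.ah.2 (f1 ▸ a))
    · exact (t.IH.sd 1 _ z b).2 (f1 ▸ hy.rev.1 (f0 ▸ a))
  let χ := fun x => ct S.M t.a true x * ct S.M t.s false x
  have c1 : ∀ x, Pj41.FSm S.X.I χ x := fun x => (ct_sm _ _ x).mul (ct_sm _ _ x)
  have c2 : tsupport χ ⊆ t.IH.ψ '' (hf y.M y.a true ∩ hf y.M y.s false) := ht.him ▸ subset_inter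
    ((tsupport_mul_subset_left).trans (ct_supp _ _)) ((tsupport_mul_subset_right).trans (ct_supp _ _))
  have fa : ∀ x ∈ t.IH.ψ '' (hf y.M y.a true ∩ hf y.M y.s false), FAt (pfd t.IH.ψ (B₀.r 0)) x := by
    rintro _ ⟨z, h, rfl⟩
    exact .pfd (ht.hl.sub h) ⟨fun k => (B₀.sm 0 z trivial k).right, B₀.sp 0 z trivial⟩
  let r : Fin B₁.n ⊕ Fin B₀.n → VF S.X.I S.X.M := Sum.elim (fun k x => (1 - χ x) • B₁.r u k x)
    fun k x => χ x • pfd t.IH.ψ (B₀.r 0) k x
  have hr : ∀ x, FAt r x := fun x => by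
    refine ⟨?_, ?_⟩
    · rintro (k | k)
      exacts [.smul (contMDiffAt_const.sub (c1 x)) (B₁.sm u x trivial k).right,
        .cutoff (c1 x) c2 fun h => (fa x h).sm _]
    · by_cases h : χ x = 0
      · exact (B₁.sp u x trivial).of_range fun a => ⟨_, .inl a,
          (inv_smul_smul₀ (show 1 - χ x ≠ 0 by simp [h]) _).symm⟩
      · exact (fa x (c2 (subset_tsupport _ h))).sp.of_range fun a => ⟨_, .inr a, (inv_smul_smul₀ h _).symm⟩
  let γ := ct S.M t.a false • (th S.X.I (t.wL i) + b₁.b u) +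
    χ • Dr59.pm S.X.I y.X.I t.IH.ψ.symm (b₀.b 0 - th y.X.I t.wH)
  refine ⟨cstB r hr, cstL γ (fun x _ => (Line51.smAt_cutoff (ct_sm _ _ x) ((ct_supp _ _).trans ne)
      fun h => ((ht.left i).uni.sm_th x h).add (b₁.sm u x trivial)).add (Line51.smAt_cutoff (c1 x) c2 ?_))
    ((((Line51.dg_th _).add (b₁.dg u)).fsmul _).add ((((b₀.dg 0).sub (Line51.dg_th _)).pm
      (mapsTo_univ _ _)).fsmul _)), fun x h => ?_, fun x h h' => ?_⟩
  · rintro ⟨z, h, rfl⟩
    refine .pm (Met55.pd_ld' (t.IH.ψ.map_source (ht.hl.sub h))).contMDiffAt ?_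
    rw [show t.IH.ψ.symm (t.IH.ψ z) = z from t.IH.ψ.left_inv (ht.hl.sub h)]
    exact (b₀.sm 0 z trivial).sub (ht.hl.uni.sm_th z h)
  · have e0 : χ x = 0 := mul_eq_zero_of_left (Real.smoothTransition.zero_of_nonpos
      (by simp only [pm, if_true]; linarith)) _
    have e1 : ct S.M t.a false x = 1 := Real.smoothTransition.one_of_one_le (by simp [pm]; linarith)
    refine ⟨fun α β => (cstB_co hr 0 x α β).symm.trans ?_, ?_⟩
    · simp [Fintype.sum_sum_type, atx, r, e0]
      exact .inr (.inl α.map_zero)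
    · simp [cstL, γ, e0, e1]
  · have m : x ∈ hf y.M y.a true ∩ hf y.M y.s false :=
      ⟨mem_hf (by simp only [pm, if_true]; linarith), mem_hf (by simp [pm]; linarith)⟩
    have s := ht.hl.sub m
    have a0 := s_ψ t.IH 0 s
    have a2 := s_ψ t.IH 2 s
    rw [f0, g0] at a0
    rw [f2, g2] at a2
    have e0 : χ (t.IH.ψ x) = 1 := by
      simp only [χ, ct, a0, a2]
      rw [Real.smoothTransition.one_of_one_le (by simp only [pm, if_true]; linarith),
        Real.smoothTransition.one_of_one_le (by simp [pm]; linarith), one_mul]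
    have e1 : ct S.M t.a false (t.IH.ψ x) = 0 := Real.smoothTransition.zero_of_nonpos
      (by simp [pm, a0]; linarith)
    refine ⟨fun α β => .trans ?_ (cstB_co hr 0 _ α β), ?_⟩
    · simp [Fintype.sum_sum_type, atx, r, e0, ← Met55.pfd_rel s, mf]
      exact ((congrArg (· + _) (mul_eq_zero_of_right _ (mul_eq_zero_of_left α.map_zero _))).trans
        (zero_add _)).symm
    · rw [Dr59.pm_congr_right (b := Dr59.pm S.X.I y.X.I t.IH.ψ.symm (b₀.b 0 - th y.X.I t.wH))
        (by simp [cstL, γ, e0, e1]), Dr59.pm_comp ((Met55.pd_ld' (t.IH.ψ.map_source s)).mdifferentiableAt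
        (by simp)) (t.IH.md s)]
      exact (congrArg _ (Dr59.pm_of_eventually_id (eventually_of_mem (t.IH.ψ.open_source.mem_nhds s)
        fun _ k => t.IH.ψ.left_inv k) _)).trans (add_sub_cancel _ _)

end Crest.Agent.X212.Mxb34
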